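import Vale.Agent.Lib.Helper2.P302.InfDefs

/-!
The fractional side of the gadget family: every step of the family of gadgets extends a
fractional family of pairs in bins by nine new pairs, and the distinguished item of level `k`
stays unused with weight `1 / 3 ^ k`.
-/

namespace Vale.Agent.Lib.Helper2.Inf

open Finset

namespace FracAux

/-- the bins of the nine new pairs -/
def nbin (m : ℕ) : Fin 9 → ℕ :=
  ![m, m + 1, m + 1, m + 2, m + 2, m + 3, m + 3, m + 4, m + 4]

/-- the first items of the nine new pairs -/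
def ni1 (N jk : ℕ) : Fin 9 → ℕ :=
  ![N, N, jk, N + 1, N + 2, N + 1, N + 4, N + 3, N + 5]

/-- the second items of the nine new pairs -/
def ni2 (N jk : ℕ) : Fin 9 → ℕ :=
  ![jk, N + 7, jk, N + 3, N + 2, N + 6, N + 4, N + 6, N + 5]

/-- the weights of the nine new pairs -/
noncomputable def nw (r : ℝ) : Fin 9 → ℝ :=
  ![r / 3, 1 - r / 3, r / 3, 1 / 2, 1 / 2, 1 / 2, 1 / 2, 1 / 2, 1 / 2]

lemma next_w_old (G : Gadget) (jk H i : ℕ) (hi : i < G.N) :
    (G.next jk H).w i = G.w i + (H + 16) := by
  simp [Gadget.next, hi]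

lemma next_w_new (G : Gadget) (jk H t : ℕ) :
    (G.next jk H).w (G.N + t) =
      if t = 0 then 0
      else if t = 1 then 4 * (H + (H + 16)) - 15
      else if t = 2 then 4 * (H + (H + 16)) - 14
      else if t = 3 then 4 * (H + (H + 16)) - 13
      else if t = 4 then 4 * (H + (H + 16)) - 8
      else if t = 5 then 4 * (H + (H + 16)) - 7
      else if t = 6 then 4 * (H + (H + 16)) - 1
      else 4 * (H + (H + 16)) := by
  simp [Gadget.next]

lemma next_c_old (G : Gadget) (jk H b : ℕ) (hb : b < G.m) :
    (G.next jk H).c b = G.c b + 2 * (H + 16) := by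
  simp [Gadget.next, hb]

lemma next_c_new (G : Gadget) (jk H t : ℕ) :
    (G.next jk H).c (G.m + t) =
      if t = 0 then G.w jk + (H + 16)
      else if t = 1 then 4 * (H + (H + 16))
      else if t = 2 then 2 * (4 * (H + (H + 16))) - 28
      else if t = 3 then 2 * (4 * (H + (H + 16))) - 16
      else 2 * (4 * (H + (H + 16))) - 11 := by
  simp [Gadget.next]

lemma next_m (G : Gadget) (jk H : ℕ) : (G.next jk H).m = G.m + 5 := rfl

lemma next_N (G : Gadget) (jk H : ℕ) : (G.next jk H).N = G.N + 8 := rfl

lemma ind_self (a : ℕ) : ind a a = 1 := by simp [ind]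

lemma ind_ne {a i : ℕ} (h : a ≠ i) : ind a i = 0 := by simp [ind, h]

/-- the contribution of the nine new pairs to the usage of the item `i` -/
lemma new_item_sum (N jk : ℕ) (r : ℝ) (i : ℕ) :
    ∑ j : Fin 9, (ind (ni1 N jk j) i + ind (ni2 N jk j) i) * nw r j
      = ind N i + r * ind jk i + (1 - r / 3) * ind (N + 7) i + ind (N + 1) i + ind (N + 2) i
        + ind (N + 3) i + ind (N + 4) i + ind (N + 5) i + ind (N + 6) i := by
  simp [Fin.sum_univ_succ, ni1, ni2, nw]
  ring

/-- the contribution of the nine new pairs to the usage of the bin `b` -/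
lemma new_bin_sum (m : ℕ) (r : ℝ) (b : ℕ) :
    ∑ j : Fin 9, ind (nbin m j) b * nw r j
      = r / 3 * ind m b + ind (m + 1) b + ind (m + 2) b + ind (m + 3) b + ind (m + 4) b := by
  simp [Fin.sum_univ_succ, nbin, nw]
  ring

lemma new_weight_sum (r : ℝ) : ∑ j : Fin 9, nw r j = 4 + r / 3 := by
  simp [Fin.sum_univ_succ, nw]
  ring

end FracAux

open FracAux

/-- One step of the gadget family on the fractional side. -/
theorem next_frac (G : Gadget) (jk H : ℕ) (tstar r : ℝ) (hjk : jk < G.N) (hwjk : G.w jk ≤ H)
    (hr0 : 0 ≤ r) (hr1 : r ≤ 1) (h : G.FracPairs tstar r jk) :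
    (G.next jk H).FracPairs (tstar + 4 + r / 3) (r / 3) (G.N + 7) := by
  obtain ⟨J, hJ, bin, i1, i2, wgt, hw0, hfit, hbin, hitem, htot⟩ := h
  refine ⟨J ⊕ Fin 9, inferInstance, Sum.elim bin (nbin G.m), Sum.elim i1 (ni1 G.N jk),
    Sum.elim i2 (ni2 G.N jk), Sum.elim wgt (nw r), ?_, ?_, ?_, ?_, ?_⟩
  · -- the weights are nonnegative
    rintro (j | j)
    · exact hw0 j
    · fin_cases j <;> simp [nw] <;> linarith
  · -- every pair fits into its bin
    rintro (j | j)
    · obtain ⟨h1, h2, h3, h4⟩ := hfit j
      simp only [Sum.elim_inl, next_m, next_N]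
      refine ⟨by omega, by omega, by omega, ?_⟩
      rw [next_w_old G jk H _ h2, next_w_old G jk H _ h3, next_c_old G jk H _ h1]
      omega
    · simp only [Sum.elim_inr, next_m, next_N]
      have hw := next_w_old G jk H jk hjk
      have w0 := next_w_new G jk H 0
      have w1 := next_w_new G jk H 1
      have w2 := next_w_new G jk H 2
      have w3 := next_w_new G jk H 3
      have w4 := next_w_new G jk H 4
      have w5 := next_w_new G jk H 5
      have w6 := next_w_new G jk H 6
      have w7 := next_w_new G jk H 7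
      have c0 := next_c_new G jk H 0
      have c1 := next_c_new G jk H 1
      have c2 := next_c_new G jk H 2
      have c3 := next_c_new G jk H 3
      have c4 := next_c_new G jk H 4
      simp only [add_zero] at w0 c0
      norm_num at w0 w1 w2 w3 w4 w5 w6 w7 c0 c1 c2 c3 c4
      fin_cases j <;> simp [nbin, ni1, ni2] <;> omega
  · -- every bin is used with total weight at most one
    intro b hb
    rw [Fintype.sum_sum_type]
    simp only [Sum.elim_inl, Sum.elim_inr]
    rw [new_bin_sum]
    rw [next_m] at hb
    by_cases hbm : b < G.m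
    · have h0 := hbin b hbm
      rw [ind_ne (show G.m ≠ b by omega), ind_ne (show G.m + 1 ≠ b by omega),
        ind_ne (show G.m + 2 ≠ b by omega), ind_ne (show G.m + 3 ≠ b by omega),
        ind_ne (show G.m + 4 ≠ b by omega)]
      linarith
    · have hold : ∑ j : J, ind (bin j) b * wgt j = 0 := by
        apply Finset.sum_eq_zero
        intro j _
        have := (hfit j).1
        rw [ind_ne (show bin j ≠ b by omega)]
        ring
      rw [hold]
      obtain ⟨t, rfl⟩ := Nat.exists_eq_add_of_le (Nat.le_of_not_lt hbm)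
      have ht : t < 5 := by omega
      interval_cases t <;> first | (simp [ind]; linarith) | simp [ind]
  · -- every item is used with the right total weight
    intro i hi
    rw [Fintype.sum_sum_type]
    simp only [Sum.elim_inl, Sum.elim_inr]
    rw [new_item_sum]
    rw [next_N] at hi
    by_cases hiN : i < G.N
    · have h0 := hitem i hiN
      rw [h0, ind_ne (show G.N ≠ i by omega), ind_ne (show G.N + 1 ≠ i by omega),
        ind_ne (show G.N + 2 ≠ i by omega), ind_ne (show G.N + 3 ≠ i by omega),
        ind_ne (show G.N + 4 ≠ i by omega), ind_ne (show G.N + 5 ≠ i by omega),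
        ind_ne (show G.N + 6 ≠ i by omega), ind_ne (show G.N + 7 ≠ i by omega)]
      rw [if_neg (show i ≠ G.N + 7 by omega)]
      by_cases hij : i = jk
      · subst hij
        rw [ind_self]
        simp
      · rw [ind_ne (show jk ≠ i from fun h => hij h.symm)]
        simp [hij]
    · have hold : ∑ j : J, (ind (i1 j) i + ind (i2 j) i) * wgt j = 0 := by
        apply Finset.sum_eq_zero
        intro j _
        have := (hfit j).2.1
        have := (hfit j).2.2.1
        rw [ind_ne (show i1 j ≠ i by omega), ind_ne (show i2 j ≠ i by omega)]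
        ring
      rw [hold, ind_ne (show jk ≠ i by omega)]
      obtain ⟨t, rfl⟩ := Nat.exists_eq_add_of_le (Nat.le_of_not_lt hiN)
      have ht : t < 8 := by omega
      interval_cases t <;> simp [ind]
  · -- the total weight
    rw [Fintype.sum_sum_type]
    simp only [Sum.elim_inl, Sum.elim_inr]
    rw [htot, new_weight_sum]
    ring

namespace FracAux

/-- the invariant used in the induction: the distinguished item is an item, and all weights are
at most the recorded bound -/
lemma gdata_inv (k : ℕ) :
    (gdata k).jk < (gdata k).G.N ∧ ∀ i, i < (gdata k).G.N → (gdata k).G.w i ≤ (gdata k).H := by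
  induction k with
  | zero =>
    refine ⟨by simp [gdata], ?_⟩
    intro i hi
    have hi' : i < 7 := hi
    interval_cases i <;> simp [gdata]
  | succ k ih =>
    obtain ⟨h1, h2⟩ := ih
    refine ⟨?_, ?_⟩
    · show (gdata k).G.N + 7 < (gdata k).G.N + 8
      omega
    · intro i hi
      have hi' : i < (gdata k).G.N + 8 := hi
      show ((gdata k).G.next (gdata k).jk (gdata k).H).w i
        ≤ 8 * ((gdata k).H + ((gdata k).H + 16))
      by_cases hiN : i < (gdata k).G.N
      · rw [next_w_old _ _ _ _ hiN]
        have := h2 i hiN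
        omega
      · obtain ⟨t, rfl⟩ := Nat.exists_eq_add_of_le (Nat.le_of_not_lt hiN)
        rw [next_w_new]
        split_ifs <;> omega

/-- the fractional family of pairs of the first gadget -/
lemma gdata_frac_zero : (gdata 0).G.FracPairs 3 1 (gdata 0).jk := by
  refine ⟨Fin 6, inferInstance, ![0, 0, 1, 1, 2, 2], ![0, 1, 0, 2, 3, 4], ![3, 1, 5, 2, 5, 4],
    fun _ => 1 / 2, ?_, ?_, ?_, ?_, ?_⟩
  · intro j
    norm_num
  · intro j
    fin_cases j <;> simp [gdata]
  · intro b hb
    have hb' : b < 3 := hb
    interval_cases b <;> simp [Fin.sum_univ_succ, ind] <;> norm_num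
  · intro i hi
    have hi' : i < 7 := hi
    interval_cases i <;> simp [Fin.sum_univ_succ, ind, gdata] <;> norm_num
  · simp
    norm_num

end FracAux

/-- The fractional side of the gadget family: the gadget of level `k` has a fractional family of
pairs in bins of total weight `4 k + 2 + 3/2 - 1/(2 * 3^k)` that uses every item fully except
the distinguished item, which stays unused with weight `1 / 3^k`. -/
theorem gdata_frac (k : ℕ) :
    (gdata k).G.FracPairs (4 * k + 2 + 3 / 2 - 1 / (2 * 3 ^ k)) (1 / 3 ^ k) (gdata k).jk := by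
  induction k with
  | zero =>
    have h := gdata_frac_zero
    have e : (4 * ((0 : ℕ) : ℝ) + 2 + 3 / 2 - 1 / (2 * 3 ^ 0)) = 3 := by norm_num
    have e' : (1 : ℝ) / 3 ^ 0 = 1 := by norm_num
    rw [e, e']
    exact h
  | succ k ih =>
    obtain ⟨h1, h2⟩ := gdata_inv k
    have hr0 : (0 : ℝ) ≤ 1 / 3 ^ k := by positivity
    have hr1 : (1 : ℝ) / 3 ^ k ≤ 1 := by
      rw [div_le_one (by positivity)]
      exact one_le_pow₀ (by norm_num)
    have h := next_frac (gdata k).G (gdata k).jk (gdata k).H _ _ h1 (h2 _ h1) hr0 hr1 ih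
    have e : (4 * ((k + 1 : ℕ) : ℝ) + 2 + 3 / 2 - 1 / (2 * 3 ^ (k + 1)))
        = 4 * (k : ℝ) + 2 + 3 / 2 - 1 / (2 * 3 ^ k) + 4 + 1 / 3 ^ k / 3 := by
      have h3 : (3 : ℝ) ^ k ≠ 0 := by positivity
      push_cast
      rw [pow_succ]
      field_simp
      ring
    have e' : (1 : ℝ) / 3 ^ (k + 1) = 1 / 3 ^ k / 3 := by
      rw [pow_succ]
      field_simp
    rw [e, e']
    exact h

end Vale.Agent.Lib.Helper2.Inf
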