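import Vale.Agent.Lib.Helper6.P302Wide

/-!
A pairs in bins instance with 28 bins and 52 items, built in 4 levels with the wide level
step around four equal items: at most 24 of its bins can receive pairs at the same time, while
it has a fractional family of pairs in bins of total weight 6893/270.
-/

namespace Vale.Agent.Lib.Helper2.PiB

/-- The 28 capacities. -/
def capsW4 : List ℕ := [
  155549, 155660, 155762, 155764, 155767, 155773, 155786, 155505, 157218, 159456, 159458, 159461,
  159467, 159480, 154927, 182272, 218686, 218688, 218691, 218697, 218710, 145805, 583262, 1166492,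
  1166494, 1166497, 1166503, 1166516]

/-- The 52 item weights. -/
def itemsW4 : List ℕ := [
  77786, 77786, 77786, 77786, 77763, 77877, 77881, 77882, 77883, 77886, 77887, 77893,
  77894, 77895, 77896, 77897, 77474, 79724, 79728, 79729, 79730, 79733, 79734, 79740,
  79741, 79742, 79743, 79744, 72913, 109339, 109343, 109344, 109345, 109348, 109349, 109355,
  109356, 109357, 109358, 109359, 0, 583242, 583246, 583247, 583248, 583251, 583252, 583258,
  583259, 583260, 583261, 583262]

/-- The weight of item `i`. -/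
def wW4 (i : ℕ) : ℕ := itemsW4.getD i 0

/-- The capacity of bin `b`. -/
def cW4 (b : ℕ) : ℕ := capsW4.getD b 0

theorem levW4_0 (S : Finset ℕ) (f g : ℕ → ℕ)
    (hP : Placed wW4 cW4 (Finset.range 4) ∅ S f g) : S.card + 1 ≤ 1 :=
  no_bins wW4 cW4 (Finset.range 4) S f g hP

theorem pureW4_1 (S : Finset ℕ) (f g : ℕ → ℕ)
    (hP : Placed wW4 cW4 (Finset.Ico 5 16) (Finset.Ico 2 7) S f g) :
    S.card + 2 ≤ (Finset.Ico 2 7).card :=
  pure_bound wW4 cW4 (Finset.Ico 5 16) (Finset.Ico 2 7) [2, 3, 4, 5, 6] (by decide +kernel)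
    (by decide +kernel) (by decide +kernel) (by decide +kernel) S f g hP

theorem levW4_1 (S : Finset ℕ) (f g : ℕ → ℕ)
    (hP : Placed wW4 cW4 (Finset.range 16) (Finset.range 7) S f g) : S.card + 1 ≤ 7 := by
  have h := level_step_wide wW4 cW4 (Finset.range 4) ∅ (Finset.Ico 5 16)
    (Finset.range 16) (Finset.range 7) (Finset.Ico 2 7) 4 0 1 1
    (by decide +kernel) (by decide +kernel) (by decide +kernel) (by decide +kernel)
    (by decide +kernel) (by decide +kernel) (by decide +kernel) (by decide +kernel)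
    pureW4_1 levW4_0 S f g hP
  have hc : (Finset.Ico 2 7).card = 5 := by decide +kernel
  omega

theorem pureW4_2 (S : Finset ℕ) (f g : ℕ → ℕ)
    (hP : Placed wW4 cW4 (Finset.Ico 17 28) (Finset.Ico 9 14) S f g) :
    S.card + 2 ≤ (Finset.Ico 9 14).card :=
  pure_bound wW4 cW4 (Finset.Ico 17 28) (Finset.Ico 9 14) [9, 10, 11, 12, 13] (by decide +kernel)
    (by decide +kernel) (by decide +kernel) (by decide +kernel) S f g hP

theorem levW4_2 (S : Finset ℕ) (f g : ℕ → ℕ)
    (hP : Placed wW4 cW4 (Finset.range 28) (Finset.range 14) S f g) : S.card + 1 ≤ 13 := by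
  have h := level_step_wide wW4 cW4 (Finset.range 16) (Finset.range 7) (Finset.Ico 17 28)
    (Finset.range 28) (Finset.range 14) (Finset.Ico 9 14) 16 7 8 7
    (by decide +kernel) (by decide +kernel) (by decide +kernel) (by decide +kernel)
    (by decide +kernel) (by decide +kernel) (by decide +kernel) (by decide +kernel)
    pureW4_2 levW4_1 S f g hP
  have hc : (Finset.Ico 9 14).card = 5 := by decide +kernel
  omega

theorem pureW4_3 (S : Finset ℕ) (f g : ℕ → ℕ)
    (hP : Placed wW4 cW4 (Finset.Ico 29 40) (Finset.Ico 16 21) S f g) :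
    S.card + 2 ≤ (Finset.Ico 16 21).card :=
  pure_bound wW4 cW4 (Finset.Ico 29 40) (Finset.Ico 16 21) [16, 17, 18, 19, 20] (by decide +kernel)
    (by decide +kernel) (by decide +kernel) (by decide +kernel) S f g hP

theorem levW4_3 (S : Finset ℕ) (f g : ℕ → ℕ)
    (hP : Placed wW4 cW4 (Finset.range 40) (Finset.range 21) S f g) : S.card + 1 ≤ 19 := by
  have h := level_step_wide wW4 cW4 (Finset.range 28) (Finset.range 14) (Finset.Ico 29 40)
    (Finset.range 40) (Finset.range 21) (Finset.Ico 16 21) 28 14 15 13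
    (by decide +kernel) (by decide +kernel) (by decide +kernel) (by decide +kernel)
    (by decide +kernel) (by decide +kernel) (by decide +kernel) (by decide +kernel)
    pureW4_3 levW4_2 S f g hP
  have hc : (Finset.Ico 16 21).card = 5 := by decide +kernel
  omega

theorem pureW4_4 (S : Finset ℕ) (f g : ℕ → ℕ)
    (hP : Placed wW4 cW4 (Finset.Ico 41 52) (Finset.Ico 23 28) S f g) :
    S.card + 2 ≤ (Finset.Ico 23 28).card :=
  pure_bound wW4 cW4 (Finset.Ico 41 52) (Finset.Ico 23 28) [23, 24, 25, 26, 27] (by decide +kernel)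
    (by decide +kernel) (by decide +kernel) (by decide +kernel) S f g hP

theorem levW4_4 (S : Finset ℕ) (f g : ℕ → ℕ)
    (hP : Placed wW4 cW4 (Finset.range 52) (Finset.range 28) S f g) : S.card + 1 ≤ 25 := by
  have h := level_step_wide wW4 cW4 (Finset.range 40) (Finset.range 21) (Finset.Ico 41 52)
    (Finset.range 52) (Finset.range 28) (Finset.Ico 23 28) 40 21 22 19
    (by decide +kernel) (by decide +kernel) (by decide +kernel) (by decide +kernel)
    (by decide +kernel) (by decide +kernel) (by decide +kernel) (by decide +kernel)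
    pureW4_4 levW4_3 S f g hP
  have hc : (Finset.Ico 23 28).card = 5 := by decide +kernel
  omega

end Vale.Agent.Lib.Helper2.PiB

namespace Vale.Agent.Lib.Helper2.Inf

open Vale.Agent.Lib.Helper2.PiB

/-- The gadget with 28 bins and 52 items. -/
def gadgetW4 : Gadget := ⟨28, 52, wW4, cW4⟩

/-- At most 24 of the 28 bins can receive pairs of the 52 items at the same time. -/
theorem gadgetW4_int : gadgetW4.IntBound 24 := by
  intro S f g hP
  have h := levW4_4 S f g hP
  omega

/-- The bins of the fractional family. -/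
def fbinW4 : List ℕ := [
  27, 27, 27, 26, 26, 25, 25, 24, 24, 24, 23, 23,
  23, 23, 23, 22, 22, 20, 20, 20, 20, 19, 19, 19,
  18, 18, 17, 17, 17, 16, 16, 16, 15, 15, 13, 13,
  13, 12, 12, 12, 11, 11, 10, 10, 10, 9, 9, 9,
  8, 8, 8, 6, 6, 6, 5, 5, 5, 4, 3, 3,
  2, 2, 2, 4, 1, 1, 0, 7, 14, 21]

/-- The first items of the fractional family. -/
def fi1W4 : List ℕ := [
  47, 46, 45, 45, 41, 42, 44, 43, 42, 41, 42, 36,
  36, 36, 36, 40, 39, 35, 33, 34, 34, 33, 29, 29,
  30, 32, 31, 30, 29, 30, 24, 24, 28, 27, 23, 22,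
  22, 21, 17, 21, 18, 20, 19, 18, 17, 18, 12, 13,
  16, 16, 15, 11, 9, 9, 9, 5, 5, 8, 7, 5,
  6, 0, 0, 0, 3, 2, 1, 13, 25, 37]

/-- The second items of the fractional family. -/
def fi2W4 : List ℕ := [
  47, 50, 50, 46, 49, 45, 44, 43, 44, 46, 42, 51,
  50, 49, 48, 48, 39, 35, 39, 37, 36, 34, 38, 37,
  33, 32, 31, 32, 34, 30, 39, 38, 38, 27, 23, 27,
  26, 22, 26, 21, 21, 20, 19, 20, 22, 18, 27, 25,
  25, 24, 15, 11, 13, 12, 10, 14, 13, 8, 7, 10,
  6, 15, 14, 14, 3, 2, 4, 16, 28, 40]

/-- The numerators of the weights of the fractional family; the denominator is 270. -/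
def fnumW4 : List ℕ := [
  135, 108, 27, 81, 189, 162, 108, 135, 54, 81, 27, 16,
  135, 81, 11, 259, 11, 135, 27, 81, 27, 81, 11, 178,
  162, 108, 135, 54, 81, 27, 221, 22, 237, 33, 135, 54,
  81, 54, 189, 27, 162, 108, 135, 54, 81, 27, 150, 93,
  144, 27, 99, 135, 15, 120, 135, 72, 63, 135, 135, 135,
  135, 72, 63, 135, 135, 135, 270, 99, 33, 11]

/-- The fractional family of pairs in bins: total weight `6893 / 270`, and the item 51 is used
with total weight `1 - 254 / 270`. -/
theorem gadgetW4_frac : gadgetW4.FracPairs ((6893 : ℕ) / (270 : ℕ)) ((254 : ℕ) / (270 : ℕ)) 51 :=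
  fracPairs_of_nat gadgetW4 70 270 6893 254 51 (by norm_num)
    (fun j => fbinW4.getD j 0) (fun j => fi1W4.getD j 0) (fun j => fi2W4.getD j 0)
    (fun j => fnumW4.getD j 0)
    (by decide +kernel) (by decide +kernel) (by decide +kernel) (by decide +kernel)

/-- All weights and capacities are at most 1166516. -/
theorem gadgetW4_le : (∀ b, b < gadgetW4.m → gadgetW4.c b ≤ 1166516) ∧
    (∀ i, i < gadgetW4.N → gadgetW4.w i ≤ 1166516) := by
  constructor <;> decide +kernel

end Vale.Agent.Lib.Helper2.Inf
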