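import Vale.Agent.Lib.Helper2.P302.InfDefs
import Vale.Agent.Lib.Helper3.BinPacking

/-!
From a fractional family of triples of a thirds instance to a fractional cover of the
configuration linear program: the triples are configurations, and every item `i` is also covered
by the configuration consisting of two copies of `i`, with weight half of its unused fraction.
-/

namespace Vale.Agent.Lib.Helper2.Inf

open Finset Vale.Agent.Lib.Helper3.BinPacking

namespace LPAux

lemma sum_ind_fin {n : ℕ} (p : ℕ) (hp : p < n) (F : Fin n → ℝ) :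
    ∑ i : Fin n, ind p i * F i = F ⟨p, hp⟩ := by
  have h : ∀ i : Fin n, ind p i * F i = if (⟨p, hp⟩ : Fin n) = i then F i else 0 := by
    intro i
    unfold ind
    by_cases hpi : p = (i : ℕ)
    · have h' : (⟨p, hp⟩ : Fin n) = i := Fin.ext hpi
      rw [if_pos hpi, if_pos h', one_mul]
    · have h' : (⟨p, hp⟩ : Fin n) ≠ i := fun h'' => hpi (congrArg Fin.val h'')
      rw [if_neg hpi, if_neg h', zero_mul]
  simp_rw [h]
  simp

/-- the configuration of a triple of items -/
def cT {n : ℕ} (a : Fin n → ℚ) (X Y Z : Fin n) : ℚ → ℕ := fun σ =>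
  (if a X = σ then 1 else 0) + (if a Y = σ then 1 else 0) + (if a Z = σ then 1 else 0)

/-- the configuration consisting of two copies of an item -/
def cP {n : ℕ} (a : Fin n → ℚ) (i : Fin n) : ℚ → ℕ := fun σ => if a i = σ then 2 else 0

lemma mem_sizes {n : ℕ} (a : Fin n → ℚ) (i : Fin n) : a i ∈ sizes a :=
  Finset.mem_image_of_mem a (Finset.mem_univ i)

lemma sum_sizes_ite {n : ℕ} (a : Fin n → ℚ) (i : Fin n) :
    ∑ σ ∈ sizes a, (if a i = σ then σ else 0) = a i := by
  rw [Finset.sum_ite_eq, if_pos (mem_sizes a i)]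

lemma isConfig_cT {n : ℕ} (a : Fin n → ℚ) (X Y Z : Fin n) (h : a X + a Y + a Z ≤ 1) :
    IsConfig a (cT a X Y Z) := by
  refine ⟨?_, ?_⟩
  · intro σ hσ
    have h1 : a X ≠ σ := fun h' => hσ (h' ▸ mem_sizes a X)
    have h2 : a Y ≠ σ := fun h' => hσ (h' ▸ mem_sizes a Y)
    have h3 : a Z ≠ σ := fun h' => hσ (h' ▸ mem_sizes a Z)
    simp [cT, h1, h2, h3]
  · have e : ∀ σ : ℚ, σ * ((cT a X Y Z σ : ℕ) : ℚ)
        = (if a X = σ then σ else 0) + (if a Y = σ then σ else 0)
          + (if a Z = σ then σ else 0) := by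
      intro σ
      unfold cT
      push_cast
      split_ifs <;> ring
    simp_rw [e]
    rw [Finset.sum_add_distrib, Finset.sum_add_distrib, sum_sizes_ite, sum_sizes_ite,
      sum_sizes_ite]
    exact h

lemma isConfig_cP {n : ℕ} (a : Fin n → ℚ) (i : Fin n) (h : a i ≤ 1 / 2) :
    IsConfig a (cP a i) := by
  refine ⟨?_, ?_⟩
  · intro σ hσ
    have h1 : a i ≠ σ := fun h' => hσ (h' ▸ mem_sizes a i)
    simp [cP, h1]
  · have e : ∀ σ : ℚ, σ * ((cP a i σ : ℕ) : ℚ) = 2 * (if a i = σ then σ else 0) := by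
      intro σ
      unfold cP
      split_ifs <;> push_cast <;> ring
    simp_rw [e]
    rw [← Finset.mul_sum, sum_sizes_ite]
    linarith

end LPAux

open LPAux

/-- A fractional family of triples gives a fractional cover of the configuration linear program
of every instance in which the triples of nonpositive charge fit into a bin and two copies of
every item fit into a bin. -/
theorem lp_le_of_FS {n : ℕ} (a : Fin n → ℚ) (d : ℕ → ℤ) (ρ : ℕ → ℝ) (v : ℝ)
    (hpair : ∀ i, a i ≤ 1 / 2)
    (htriple : ∀ i j k : Fin n, d i + d j + d k ≤ 0 → a i + a j + a k ≤ 1)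
    (hFS : FS d n ρ v) : lp a ≤ ((n : ℝ) - v) / 2 := by
  obtain ⟨J, hJ, x, y, z, wgt, hw0, hxyz, hitem, hρ0, htot⟩ := hFS
  -- the items of the triples as elements of `Fin n`
  set X : J → Fin n := fun j => ⟨x j, (hxyz j).1⟩ with hX
  set Y : J → Fin n := fun j => ⟨y j, (hxyz j).2.1⟩ with hY
  set Z : J → Fin n := fun j => ⟨z j, (hxyz j).2.2.1⟩ with hZ
  -- the family of configurations, indexed by `J ⊕ Fin n`
  let cfgK : J ⊕ Fin n → ℚ → ℕ := Sum.elim (fun j => cT a (X j) (Y j) (Z j)) (fun i => cP a i)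
  let wK : J ⊕ Fin n → ℝ := Sum.elim wgt (fun i => ρ i / 2)
  let e : J ⊕ Fin n ≃ Fin (Fintype.card (J ⊕ Fin n)) := Fintype.equivFin (J ⊕ Fin n)
  -- the usage of an item
  set U : ℕ → ℝ := fun i => ∑ j, (ind (x j) i + ind (y j) i + ind (z j) i) * wgt j with hU
  have hUρ : ∀ i : Fin n, U i + ρ i = 1 := fun i => hitem i i.2
  -- the coverage of a size by the triples
  have hcovT : ∀ σ : ℚ, ∑ j, ((cT a (X j) (Y j) (Z j) σ : ℕ) : ℝ) * wgt j
      = ∑ i : Fin n, (if a i = σ then (1 : ℝ) else 0) * U i := by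
    intro σ
    have h1 : ∀ i : Fin n, (if a i = σ then (1 : ℝ) else 0) * U i
        = ∑ j, wgt j * ((ind (x j) i * (if a i = σ then (1 : ℝ) else 0))
          + (ind (y j) i * (if a i = σ then (1 : ℝ) else 0))
          + (ind (z j) i * (if a i = σ then (1 : ℝ) else 0))) := by
      intro i
      rw [hU, Finset.mul_sum]
      exact Finset.sum_congr rfl (fun j _ => by ring)
    simp_rw [h1]
    rw [Finset.sum_comm]
    refine Finset.sum_congr rfl (fun j _ => ?_)
    rw [← Finset.mul_sum, Finset.sum_add_distrib, Finset.sum_add_distrib,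
      sum_ind_fin (x j) (hxyz j).1, sum_ind_fin (y j) (hxyz j).2.1,
      sum_ind_fin (z j) (hxyz j).2.2.1]
    unfold cT
    push_cast
    ring
  -- the coverage of a size by the pairs
  have hcovP : ∀ σ : ℚ, ∑ i : Fin n, ((cP a i σ : ℕ) : ℝ) * (ρ i / 2)
      = ∑ i : Fin n, (if a i = σ then (1 : ℝ) else 0) * ρ i := by
    intro σ
    refine Finset.sum_congr rfl (fun i _ => ?_)
    unfold cP
    split_ifs <;> push_cast <;> ring
  have hcover : IsFracCover a (Fintype.card (J ⊕ Fin n)) (fun t => cfgK (e.symm t))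
      (fun t => wK (e.symm t)) := by
    have hwK : ∀ k : J ⊕ Fin n, 0 ≤ wK k := by
      rintro (j | i)
      · exact hw0 j
      · exact div_nonneg (hρ0 i) (by norm_num)
    have hcK : ∀ k : J ⊕ Fin n, IsConfig a (cfgK k) := by
      rintro (j | i)
      · exact isConfig_cT a (X j) (Y j) (Z j) (htriple (X j) (Y j) (Z j) (hxyz j).2.2.2)
      · exact isConfig_cP a i (hpair i)
    refine ⟨fun t => hwK (e.symm t), fun t => hcK (e.symm t), ?_⟩
    · intro σ _
      rw [Equiv.sum_comp e.symm (fun k => ((cfgK k σ : ℕ) : ℝ) * wK k), Fintype.sum_sum_type]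
      simp only [cfgK, wK, Sum.elim_inl, Sum.elim_inr]
      rw [hcovT σ, hcovP σ, ← Finset.sum_add_distrib]
      have h2 : ∀ i : Fin n, (if a i = σ then (1 : ℝ) else 0) * U i
          + (if a i = σ then (1 : ℝ) else 0) * ρ i = if a i = σ then (1 : ℝ) else 0 := by
        intro i
        rw [← mul_add, hUρ i, mul_one]
      simp_rw [h2]
      rw [Finset.sum_boole]
      unfold mult
      exact le_refl _
  have hlp := lp_le_of_cover a _ _ _ hcover
  rw [Equiv.sum_comp e.symm wK, Fintype.sum_sum_type] at hlp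
  simp only [wK, Sum.elim_inl, Sum.elim_inr] at hlp
  rw [htot, ← Finset.sum_div] at hlp
  -- the sum of the unused fractions
  have hsumU : ∑ i : Fin n, U i = 3 * v := by
    have h1 : ∀ i : Fin n, U i = ∑ j, wgt j * (ind (x j) i * 1 + ind (y j) i * 1
        + ind (z j) i * 1) := by
      intro i
      rw [hU]
      exact Finset.sum_congr rfl (fun j _ => by ring)
    simp_rw [h1]
    rw [Finset.sum_comm]
    have h2 : ∀ j : J, ∑ i : Fin n, wgt j * (ind (x j) i * 1 + ind (y j) i * 1
        + ind (z j) i * 1) = 3 * wgt j := by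
      intro j
      rw [← Finset.mul_sum, Finset.sum_add_distrib, Finset.sum_add_distrib,
        sum_ind_fin (x j) (hxyz j).1 (fun _ => (1 : ℝ)),
        sum_ind_fin (y j) (hxyz j).2.1 (fun _ => (1 : ℝ)),
        sum_ind_fin (z j) (hxyz j).2.2.1 (fun _ => (1 : ℝ))]
      ring
    simp_rw [h2]
    rw [← Finset.mul_sum, htot]
  have hsumρ : ∑ i : Fin n, ρ i = (n : ℝ) - 3 * v := by
    have h1 : ∑ i : Fin n, (U i + ρ i) = ∑ _i : Fin n, (1 : ℝ) :=
      Finset.sum_congr rfl (fun i _ => hUρ i)
    rw [Finset.sum_add_distrib, hsumU] at h1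
    simp at h1
    linarith
  rw [hsumρ] at hlp
  linarith

end Vale.Agent.Lib.Helper2.Inf
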