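import Vale.Agent.Lib.Helper2.P302.PiB

/-!
Pairs in bins: a wider level step.  Around a given instance one adds a light item, a set of
heavy items, a small bin, a top bin and a set `A` of further bins into which pairs of heavy
items can be placed in at most `A.card - 2` bins at the same time.
-/

namespace Vale.Agent.Lib.Helper2.PiB

open Finset

/-- The wide level step: around an instance with items `I` (at most `2 n + 2` of them) and
bins `B` which leaves room for fewer than `n` pairs, add a light item `z`, heavy items `L`, a
small bin `sm`, a top bin `tp` and a set `A` of further bins.  If heavy items fit only into the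
bins of `A` or, together with `z`, into the top bin, if the small bin takes no pair of old
items, and if pairs of heavy items can be placed into at most `A.card - 2` bins of `A` at the
same time, then the new instance leaves room for fewer than `n + A.card + 1` pairs. -/
theorem level_step_wide (w c : ℕ → ℕ) (I B L I' B' A : Finset ℕ) (z sm tp n : ℕ)
    (hI' : I' = insert z I ∪ L) (hB' : B' = insert sm (insert tp B) ∪ A)
    (hIcard : I.card ≤ 2 * n + 2)
    (htpB : tp ∉ B) (hsmtp : sm ≠ tp)
    (h1 : ∀ l ∈ L, ∀ i ∈ I', ∀ b ∈ insert sm B, c b < w l + w i)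
    (h2 : ∀ l ∈ L, ∀ i ∈ I ∪ L, c tp < w l + w i)
    (h3 : ∀ i ∈ I, ∀ j ∈ I, i ≠ j → c sm < w i + w j)
    (h4 : ∀ (S : Finset ℕ) (f g : ℕ → ℕ), Placed w c L A S f g → S.card + 2 ≤ A.card)
    (IH : ∀ (S : Finset ℕ) (f g : ℕ → ℕ), Placed w c I B S f g → S.card + 1 ≤ n)
    (S : Finset ℕ) (f g : ℕ → ℕ) (hP : Placed w c I' B' S f g) :
    S.card + 1 ≤ n + A.card + 1 := by
  classical
  subst hI' hB'
  by_contra hcon
  have hScard : n + A.card + 1 ≤ S.card := by omega
  set U := S.image f ∪ S.image g with hU
  have hUcard : U.card = 2 * S.card := hP.card_used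
  set F := S.filter (fun b => f b ∈ L) with hF
  set G := S.filter (fun b => g b ∈ L) with hG
  have hUL : (U.filter (fun x => x ∈ L)).card ≤ F.card + G.card := by
    have hsub : U.filter (fun x => x ∈ L) ⊆ F.image f ∪ G.image g := by
      intro x hx
      rw [Finset.mem_filter, hU, Finset.mem_union, Finset.mem_image, Finset.mem_image] at hx
      obtain ⟨hx1, hxL⟩ := hx
      rw [Finset.mem_union, Finset.mem_image, Finset.mem_image]
      rcases hx1 with ⟨b, hb, rfl⟩ | ⟨b, hb, rfl⟩
      · left; exact ⟨b, Finset.mem_filter.2 ⟨hb, hxL⟩, rfl⟩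
      · right; exact ⟨b, Finset.mem_filter.2 ⟨hb, hxL⟩, rfl⟩
    calc (U.filter (fun x => x ∈ L)).card ≤ (F.image f ∪ G.image g).card :=
          Finset.card_le_card hsub
      _ ≤ (F.image f).card + (G.image g).card := Finset.card_union_le _ _
      _ ≤ F.card + G.card := Nat.add_le_add Finset.card_image_le Finset.card_image_le
  have hUnL : (U.filter (fun x => ¬ x ∈ L)).card ≤ 2 * n + 3 := by
    have hsub : U.filter (fun x => ¬ x ∈ L) ⊆ insert z I := by
      intro x hx
      rw [Finset.mem_filter] at hx
      obtain ⟨hx1, hxL⟩ := hx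
      have hxI : x ∈ insert z I ∪ L := by
        rw [hU, Finset.mem_union, Finset.mem_image, Finset.mem_image] at hx1
        rcases hx1 with ⟨b, hb, rfl⟩ | ⟨b, hb, rfl⟩
        · exact hP.memf b hb
        · exact hP.memg b hb
      rcases Finset.mem_union.1 hxI with h | h
      · exact h
      · exact absurd h hxL
    calc (U.filter (fun x => ¬ x ∈ L)).card ≤ (insert z I).card := Finset.card_le_card hsub
      _ ≤ I.card + 1 := Finset.card_insert_le z I
      _ ≤ 2 * n + 3 := by omega
  have hsplit : (U.filter (fun x => x ∈ L)).card + (U.filter (fun x => ¬ x ∈ L)).card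
      = U.card := Finset.card_filter_add_card_filter_not _
  have hFG6 : 2 * A.card ≤ F.card + G.card + 1 := by omega
  -- a bin with a heavy item is the top bin or one of the three new bins
  have hbin : ∀ b ∈ S, (f b ∈ L ∨ g b ∈ L) → b = tp ∨ b ∈ A := by
    intro b hb hl
    have hbB := hP.sub hb
    have hfit := hP.fit b hb
    rw [Finset.mem_union, Finset.mem_insert, Finset.mem_insert] at hbB
    have hno : b ∉ insert sm B := by
      intro hbm
      rcases hl with hl | hl
      · have := h1 _ hl _ (hP.memg b hb) b hbm
        omega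
      · have := h1 _ hl _ (hP.memf b hb) b hbm
        omega
    rcases hbB with (h | h | h) | h
    · exact absurd (h ▸ Finset.mem_insert_self sm B) hno
    · left; exact h
    · exact absurd (Finset.mem_insert_of_mem h) hno
    · right; exact h
  have hboth : ∀ b ∈ S, f b ∈ L → g b ∈ L → b ≠ tp := by
    intro b hb hfl hgl hbt
    have h := h2 _ hfl (g b) (Finset.mem_union_right _ hgl)
    have hfit := hP.fit b hb
    have hc : c b = c tp := by rw [hbt]
    omega
  have hFGsub : F ∩ G ⊆ A := by
    intro b hb
    rw [Finset.mem_inter, hF, hG, Finset.mem_filter, Finset.mem_filter] at hb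
    rcases hbin b hb.1.1 (Or.inl hb.1.2) with h | h
    · exact absurd h (hboth b hb.1.1 hb.1.2 hb.2.2)
    · exact h
  have hFG2 : (F ∩ G).card + 2 ≤ A.card := by
    apply h4 (F ∩ G) f g
    have hS : ∀ b ∈ F ∩ G, b ∈ S ∧ f b ∈ L ∧ g b ∈ L := by
      intro b hb
      rw [Finset.mem_inter, hF, hG, Finset.mem_filter, Finset.mem_filter] at hb
      exact ⟨hb.1.1, hb.1.2, hb.2.2⟩
    refine ⟨hFGsub, ?_, ?_, ?_, ?_, ?_⟩
    · intro b hb
      exact (hS b hb).2.1
    · intro b hb
      exact (hS b hb).2.2
    · intro b hb
      exact hP.ne b (hS b hb).1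
    · intro b hb
      exact hP.fit b (hS b hb).1
    · intro b hb b' hb' hne
      exact hP.disj b (hS b hb).1 b' (hS b' hb').1 hne
  have hFUsub : F ∪ G ⊆ insert tp A := by
    intro b hb
    rw [Finset.mem_union, hF, hG, Finset.mem_filter, Finset.mem_filter] at hb
    rw [Finset.mem_insert]
    rcases hb with hb | hb
    · exact hbin b hb.1 (Or.inl hb.2)
    · exact hbin b hb.1 (Or.inr hb.2)
  have hsum : (F ∪ G).card + (F ∩ G).card = F.card + G.card :=
    Finset.card_union_add_card_inter F G
  have htp : tp ∈ F ∪ G := by
    by_contra hno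
    have hsub3 : F ∪ G ⊆ A := by
      intro b hb
      have h := hFUsub hb
      rw [Finset.mem_insert] at h
      rcases h with h | h
      · exact absurd (h ▸ hb) hno
      · exact h
    have := Finset.card_le_card hsub3
    omega
  rw [Finset.mem_union, hF, hG, Finset.mem_filter, Finset.mem_filter] at htp
  have htpS : tp ∈ S := by
    rcases htp with h | h
    · exact h.1
    · exact h.1
  -- the light item sits in the top bin
  have hz : f tp = z ∨ g tp = z := by
    have hfit := hP.fit tp htpS
    rcases htp with h | h
    · right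
      have hg := hP.memg tp htpS
      rw [Finset.mem_union, Finset.mem_insert] at hg
      rcases hg with (hg | hg) | hg
      · exact hg
      · have := h2 _ h.2 (g tp) (Finset.mem_union_left _ hg)
        omega
      · have := h2 _ h.2 (g tp) (Finset.mem_union_right _ hg)
        omega
    · left
      have hf := hP.memf tp htpS
      rw [Finset.mem_union, Finset.mem_insert] at hf
      rcases hf with (hf | hf) | hf
      · exact hf
      · have := h2 _ h.2 (f tp) (Finset.mem_union_left _ hf)
        omega
      · have := h2 _ h.2 (f tp) (Finset.mem_union_right _ hf)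
        omega
  have hzne : ∀ b ∈ S, b ≠ tp → f b ≠ z ∧ g b ≠ z := by
    intro b hb hbt
    have d := hP.disj b hb tp htpS hbt
    rcases hz with h | h
    · rw [← h]
      exact ⟨d.1, d.2.2.1⟩
    · rw [← h]
      exact ⟨d.2.1, d.2.2.2⟩
  -- items in the old bins and in the small bin are old items
  have hold : ∀ b ∈ S, b ∈ insert sm B → f b ∈ I ∧ g b ∈ I := by
    intro b hb hbm
    have hbt : b ≠ tp := by
      intro hbt
      rw [hbt, Finset.mem_insert] at hbm
      rcases hbm with h | h
      · exact hsmtp h.symm
      · exact htpB h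
    have hzb := hzne b hb hbt
    have hfit := hP.fit b hb
    have hf := hP.memf b hb
    have hg := hP.memg b hb
    have hf' := hf
    have hg' := hg
    rw [Finset.mem_union, Finset.mem_insert] at hf hg
    constructor
    · rcases hf with (hf | hf) | hf
      · exact absurd hf hzb.1
      · exact hf
      · have := h1 _ hf _ hg' b hbm
        omega
    · rcases hg with (hg | hg) | hg
      · exact absurd hg hzb.2
      · exact hg
      · have := h1 _ hg _ hf' b hbm
        omega
  have hsm : sm ∉ S := by
    intro hs
    have hI := hold sm hs (Finset.mem_insert_self _ _)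
    have := h3 _ hI.1 _ hI.2 (hP.ne sm hs)
    have hfit := hP.fit sm hs
    omega
  -- the old bins
  have hPold : Placed w c I B (S.filter (fun b => b ∈ B)) f g := by
    refine ⟨?_, ?_, ?_, ?_, ?_, ?_⟩
    · intro b hb
      exact (Finset.mem_filter.1 hb).2
    · intro b hb
      rw [Finset.mem_filter] at hb
      exact (hold b hb.1 (Finset.mem_insert_of_mem hb.2)).1
    · intro b hb
      rw [Finset.mem_filter] at hb
      exact (hold b hb.1 (Finset.mem_insert_of_mem hb.2)).2
    · intro b hb
      exact hP.ne b (Finset.mem_filter.1 hb).1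
    · intro b hb
      exact hP.fit b (Finset.mem_filter.1 hb).1
    · intro b hb b' hb' hne
      exact hP.disj b (Finset.mem_filter.1 hb).1 b' (Finset.mem_filter.1 hb').1 hne
  have hold_card := IH _ f g hPold
  have hSsub : S ⊆ S.filter (fun b => b ∈ B) ∪ insert tp A := by
    intro b hb
    have hbB := hP.sub hb
    rw [Finset.mem_union, Finset.mem_insert, Finset.mem_insert] at hbB
    rw [Finset.mem_union, Finset.mem_filter, Finset.mem_insert]
    rcases hbB with (h | h | h) | h
    · exact absurd (h ▸ hb) hsm
    · right; left; exact h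
    · left; exact ⟨hb, h⟩
    · right; right; exact h
  have h4c : (insert tp A).card ≤ A.card + 1 := Finset.card_insert_le _ _
  have h5 := Finset.card_le_card hSsub
  have h6 := Finset.card_union_le (S.filter (fun b => b ∈ B)) (insert tp A)
  omega

end Vale.Agent.Lib.Helper2.PiB
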