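import Vale.Agent.Lib.Helper2.P302.InfDefs
import Vale.Agent.Lib.Helper6.P302Step2

/-!
Two general tools for pairs in bins instances.

* `NoFill` is a decidable statement saying that the bins of a list cannot all receive pairs of
  items at the same time; `pure_bound` turns it into a bound for the number of bins that can
  receive pairs.
* `fracPairs_of_nat` turns a fractional family of pairs in bins given by natural numbers with
  a common denominator into the real valued statement `Gadget.FracPairs`.
-/

namespace Vale.Agent.Lib.Helper2.PiB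

open Finset

/-- It is impossible to place pairwise disjoint pairs of items of `L`, none of them in the
list `U`, into all bins of the given list at the same time. -/
def NoFill (w c : ℕ → ℕ) (L : Finset ℕ) : List ℕ → List ℕ → Prop
  | [], _ => False
  | a :: as, U => ∀ x ∈ L, ∀ y ∈ L, x < y → x ∉ U → y ∉ U → w x + w y ≤ c a →
      NoFill w c L as (x :: y :: U)

instance NoFill.dec (w c : ℕ → ℕ) (L : Finset ℕ) :
    ∀ (as U : List ℕ), Decidable (NoFill w c L as U)
  | [], _ => isFalse (fun h => h)
  | a :: as, U =>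
    haveI := fun U' => NoFill.dec w c L as U'
    inferInstanceAs (Decidable (∀ x ∈ L, ∀ y ∈ L, x < y → x ∉ U → y ∉ U → w x + w y ≤ c a →
      NoFill w c L as (x :: y :: U)))

theorem NoFill.false_of_placed (w c : ℕ → ℕ) (L B S : Finset ℕ) (f g : ℕ → ℕ)
    (hP : Placed w c L B S f g) :
    ∀ (as U : List ℕ), as.Nodup → (∀ a ∈ as, a ∈ S) → (∀ a ∈ as, f a ∉ U ∧ g a ∉ U) →
      NoFill w c L as U → False
  | [], _, _, _, _, h => h
  | a :: as, U, hnd, hS, hU, h => by
    have haS : a ∈ S := hS a List.mem_cons_self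
    have hne := hP.ne a haS
    have hfit := hP.fit a haS
    have hua := hU a List.mem_cons_self
    have hnd' := List.nodup_cons.1 hnd
    have hdis : ∀ a' ∈ as, f a' ≠ f a ∧ f a' ≠ g a ∧ g a' ≠ f a ∧ g a' ≠ g a := by
      intro a' ha'
      have hne' : a' ≠ a := by
        rintro rfl
        exact hnd'.1 ha'
      exact hP.disj a' (hS a' (List.mem_cons_of_mem _ ha')) a haS hne'
    rcases Nat.lt_or_gt_of_ne hne with hlt | hgt
    · have h' := h (f a) (hP.memf a haS) (g a) (hP.memg a haS) hlt hua.1 hua.2 hfit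
      refine NoFill.false_of_placed w c L B S f g hP as (f a :: g a :: U) hnd'.2
        (fun a' ha' => hS a' (List.mem_cons_of_mem _ ha')) ?_ h'
      intro a' ha'
      have d := hdis a' ha'
      have hu := hU a' (List.mem_cons_of_mem _ ha')
      simp only [List.mem_cons, not_or]
      exact ⟨⟨d.1, d.2.1, hu.1⟩, ⟨d.2.2.1, d.2.2.2, hu.2⟩⟩
    · have h' := h (g a) (hP.memg a haS) (f a) (hP.memf a haS) hgt hua.2 hua.1 (by omega)
      refine NoFill.false_of_placed w c L B S f g hP as (g a :: f a :: U) hnd'.2
        (fun a' ha' => hS a' (List.mem_cons_of_mem _ ha')) ?_ h'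
      intro a' ha'
      have d := hdis a' ha'
      have hu := hU a' (List.mem_cons_of_mem _ ha')
      simp only [List.mem_cons, not_or]
      exact ⟨⟨d.2.1, d.1, hu.1⟩, ⟨d.2.2.2, d.2.2.1, hu.2⟩⟩

/-- If no list obtained from the list `as` of bins by removing one bin can be filled with pairs
of items of `L`, then pairs of items of `L` can be placed into at most `as.length - 2` of the
bins at the same time. -/
theorem pure_bound (w c : ℕ → ℕ) (L A : Finset ℕ) (as : List ℕ) (hA : A = as.toFinset)
    (hnd : as.Nodup) (hlen : 2 ≤ as.length)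
    (h : ∀ a ∈ as, NoFill w c L (as.erase a) [])
    (S : Finset ℕ) (f g : ℕ → ℕ) (hP : Placed w c L A S f g) : S.card + 2 ≤ A.card := by
  classical
  by_contra hcon
  have hsd : (A \ S).card ≤ 1 := by
    have := Finset.card_sdiff_add_card_eq_card hP.sub
    omega
  have hmem : ∀ a, a ∈ as ↔ a ∈ A := by
    intro a
    rw [hA, List.mem_toFinset]
  obtain ⟨a, ha, hall⟩ : ∃ a ∈ as, ∀ a' ∈ as.erase a, a' ∈ S := by
    by_cases hempty : A \ S = ∅
    · obtain ⟨a, ha⟩ : ∃ a, a ∈ as := by
        cases as with
        | nil => simp at hlen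
        | cons a l => exact ⟨a, List.mem_cons_self⟩
      refine ⟨a, ha, fun a' ha' => ?_⟩
      have h1 : a' ∈ A := (hmem a').1 (List.mem_of_mem_erase ha')
      exact (Finset.sdiff_eq_empty_iff_subset.1 hempty) h1
    · obtain ⟨a, ha⟩ := Finset.nonempty_iff_ne_empty.2 hempty
      have haA := (Finset.mem_sdiff.1 ha).1
      refine ⟨a, (hmem a).2 haA, fun a' ha' => ?_⟩
      have h2 := (hnd.mem_erase_iff).1 ha'
      by_contra hn
      have h3 : a' ∈ A \ S := Finset.mem_sdiff.2 ⟨(hmem a').1 h2.2, hn⟩
      exact h2.1 (Finset.card_le_one.1 hsd a' h3 a ha)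
  exact NoFill.false_of_placed w c L A S f g hP (as.erase a) [] (hnd.erase a) hall
    (fun _ _ => by simp) (h a ha)

/-- Without bins no pair can be placed. -/
theorem no_bins (w c : ℕ → ℕ) (I : Finset ℕ) (S : Finset ℕ) (f g : ℕ → ℕ)
    (hP : Placed w c I ∅ S f g) : S.card + 1 ≤ 1 := by
  have h : S = ∅ := Finset.subset_empty.1 hP.sub
  rw [h]
  simp

end Vale.Agent.Lib.Helper2.PiB

namespace Vale.Agent.Lib.Helper2.Inf

open Finset

/-- A fractional family of pairs in bins from natural numbers: the pairs `(bin j, i1 j, i2 j)`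
for `j < K` carry the weights `num j / D`. -/
theorem fracPairs_of_nat (G : Gadget) (K D T R jk : ℕ) (hD : 0 < D) (bin i1 i2 num : ℕ → ℕ)
    (hfit : ∀ j, j < K →
      bin j < G.m ∧ i1 j < G.N ∧ i2 j < G.N ∧ G.w (i1 j) + G.w (i2 j) ≤ G.c (bin j))
    (hbin : ∀ b, b < G.m → ∑ j ∈ range K, (if bin j = b then num j else 0) ≤ D)
    (hitem : ∀ i, i < G.N → ∑ j ∈ range K,
      ((if i1 j = i then num j else 0) + (if i2 j = i then num j else 0)) +
        (if i = jk then R else 0) = D)
    (htot : ∑ j ∈ range K, num j = T) :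
    G.FracPairs ((T : ℝ) / D) ((R : ℝ) / D) jk := by
  have hD' : (0 : ℝ) < D := by exact_mod_cast hD
  refine ⟨Fin K, inferInstance, fun j => bin j, fun j => i1 j, fun j => i2 j,
    fun j => (num j : ℝ) / D, ?_, ?_, ?_, ?_, ?_⟩
  · intro j
    positivity
  · intro j
    exact hfit j j.2
  · intro b hb
    have h := hbin b hb
    rw [Fin.sum_univ_eq_sum_range (fun j => ind (bin j) b * ((num j : ℝ) / D)) K]
    have e : ∀ j ∈ range K, ind (bin j) b * ((num j : ℝ) / D) =
        (((if bin j = b then num j else 0 : ℕ)) : ℝ) / D := by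
      intro j _
      unfold ind
      split_ifs <;> simp
    rw [Finset.sum_congr rfl e, ← Finset.sum_div, div_le_one hD', ← Nat.cast_sum]
    exact_mod_cast h
  · intro i hi
    have h := hitem i hi
    rw [Fin.sum_univ_eq_sum_range
      (fun j => (ind (i1 j) i + ind (i2 j) i) * ((num j : ℝ) / D)) K]
    have e : ∀ j ∈ range K, (ind (i1 j) i + ind (i2 j) i) * ((num j : ℝ) / D) =
        ((((if i1 j = i then num j else 0) + (if i2 j = i then num j else 0) : ℕ)) : ℝ) / D := by
      intro j _
      unfold ind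
      split_ifs <;> simp <;> ring
    rw [Finset.sum_congr rfl e, ← Finset.sum_div, ← Nat.cast_sum]
    have h' : ((∑ j ∈ range K, ((if i1 j = i then num j else 0) +
        (if i2 j = i then num j else 0)) : ℕ) : ℝ) + ((if i = jk then R else 0 : ℕ) : ℝ) = D := by
      exact_mod_cast h
    generalize ((∑ j ∈ range K, ((if i1 j = i then num j else 0) +
        (if i2 j = i then num j else 0)) : ℕ) : ℝ) = X at h' ⊢
    by_cases hjk : i = jk
    · rw [if_pos hjk] at h' ⊢
      field_simp
      linarith
    · rw [if_neg hjk, Nat.cast_zero, add_zero] at h'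
      rw [if_neg hjk, h', div_self (ne_of_gt hD'), sub_zero]
  · rw [Fin.sum_univ_eq_sum_range (fun j => (num j : ℝ) / D) K, ← Finset.sum_div,
      ← Nat.cast_sum, htot]

end Vale.Agent.Lib.Helper2.Inf
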